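import Vale.Agent.P352X.FE.Pub
import Vale.Agent.P352X.Fin0
import Vale.Agent.P352.H246.ScalVac

/-!
# P352X, block FE: from a sector to the full theory
-/

set_option linter.all false

noncomputable section

open MeasureTheory SchwartzMap Complex Filter Topology
open scoped SchwartzMap ComplexConjugate LineDeriv

namespace Vale.Agent.P352X.FE

open Vale.Agent.P352 Vale.Agent.P352.H246 Vale.Agent.P352.H496 Vale.Agent.P352.H755
open GF (Ix V Fn Sch ev pd bar sim one bas o)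
open Vale.Agent.P352.SubConf (IsAdj)

variable {D : Type*} [NormedAddCommGroup D] [InnerProductSpace ℂ D]
variable {D' : Type*} [NormedAddCommGroup D'] [InnerProductSpace ℂ D']
variable {Q : GF.Theory D}

lemma al_sum {W : Set V} {X X' : D → D} (h : Al Q W X X') {ι : Type*} (t : Finset ι) (c : ι → ℂ)
    (v : ι → D) : X (∑ k ∈ t, c k • v k) = ∑ k ∈ t, c k • X (v k) := by
  let A : D →ₗ[ℂ] D := ⟨⟨X, h.map_add⟩, h.map_smul⟩
  show A _ = ∑ k ∈ t, c k • A (v k)
  simp only [map_sum, map_smul]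

section

variable {s : ℝ} (hs : 0 < s) {M : Ix → V} (hM : GF.IsLor M) {a : V} (hC : Cov Q s M a)
include hs hM hC

omit hC in
lemma contU : Continuous fun v : D => Q.U s M a v := by
  have : (fun v : D => Q.U s M a v) =
      (LinearMap.mkContinuous (LinearMap.mk ⟨Q.U s M a, U_add hs hM a⟩ (U_smul hs hM a) :
        D →ₗ[ℂ] D) 1 (fun v => by
          show ‖Q.U s M a v‖ ≤ 1 * ‖v‖
          rw [one_mul, U_nrm hs hM]) : D → D) := rfl
  rw [this]
  exact ContinuousLinearMap.continuous _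

lemma cov_cpt {Φ : GF.Fld D} {Ψ : Ix → GF.Fld D} (hΦ : Q.bose Φ) (hΨ : ∀ k, Q.bose (Ψ k))
    (c : Ix → ℂ) {f : 𝓢(Mink, ℂ)} (hf : IsTest Set.univ f)
    (h : Φ (fl f) Q.vac = ∑ k, c k • Q.U s M a (Ψ k (fl (simS s hs hM a f)) Q.vac)) (v : D) :
    Φ (fl f) (Q.U s M a v) = ∑ k, c k • Q.U s M a (Ψ k (fl (simS s hs hM a f)) v) := by
  obtain ⟨Φ', -, hadj⟩ := Q.adj Φ (Q.bose_fld _ hΦ)
  choose Ψ' _ hadj' using fun k => Q.adj (Ψ k) (Q.bose_fld _ (hΨ k))
  have key : ∀ v w : D, inner ℂ (Φ (fl f) (Q.U s M a v)) (Q.U s M a w) =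
      inner ℂ (∑ k, c k • Q.U s M a (Ψ k (fl (simS s hs hM a f)) v)) (Q.U s M a w) := by
    intro v w
    have hfS := isTest_simS_univ hs hM a hf
    obtain ⟨b, hb, -⟩ := exists_far_test hfS hfS 0 0
    have hd : ∀ v, P352.PW Q (MW (Wed (Rt 0 0) b (-1))) v →
        inner ℂ (Φ (fl f) (Q.U s M a v)) (Q.U s M a w) =
        inner ℂ (∑ k, c k • Q.U s M a (Ψ k (fl (simS s hs hM a f)) v)) (Q.U s M a w) := by
      intro v hv
      obtain ⟨X, X', hX, rfl⟩ := exists_Al hv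
      obtain ⟨Y, Y', hY, h1, h2⟩ := cov_al hs hM hC hX
      have hsep1 : ∀ v, Φ (fl f) (Y v) = Y (Φ (fl f) v) := by
        refine bose_comm hΦ (fun G hG => ?_) hY
        have hf1 : IsTest (MW (sim s M a '' Wed (Rt 0 0) b 1)) f := isTest_simS' hs hM a hb
        rw [Rt_zero] at hf1 hG
        refine wed_sep hM (sim s M a b) ?_ ?_
        · exact ⟨hf1.1, hf1.2.trans (by
            intro x hx
            exact sim_wed (s := s) (L := M) (a := a) hs b 1 hx)⟩
        · exact ⟨hG.1, hG.2.trans (by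
            intro x hx
            exact sim_wed (s := s) (L := M) (a := a) hs b (-1) hx)⟩
      have hsep2 : ∀ k v, Ψ k (fl (simS s hs hM a f)) (X v) =
          X (Ψ k (fl (simS s hs hM a f)) v) := fun k =>
        bose_comm (hΨ k) (fun G hG => wed_sep (isLor_Rt 0 0) b hb hG) hX
      rw [h1, Q.U_vac _ _ _ hs hM, hsep1, h, al_sum hY]
      simp only [hsep2, h1]
    have hc1 : Continuous fun v : D => (inner ℂ (Φ (fl f) (Q.U s M a v)) (Q.U s M a w) : ℂ) := by
      simp only [hadj _ _ _ (isTest_fl f)]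
      exact (contU hs hM).inner continuous_const
    have hc2 : Continuous fun v : D => (inner ℂ (∑ k, c k •
        Q.U s M a (Ψ k (fl (simS s hs hM a f)) v)) (Q.U s M a w) : ℂ) := by
      have e3 := fun k v w => hadj' k _ v w (isTest_fl (simS s hs hM a f))
      simp only [sum_inner, inner_smul_left, Q.U_inner _ _ _ _ _ hs hM, e3]
      exact continuous_finset_sum _ fun k _ =>
        continuous_const.mul (continuous_id.inner continuous_const)
    exact congrFun (hc1.ext_on (dense_big (Q := Q) (big_wed 0 0 b)) hc2 hd) v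
  have h2 := hC.1.equalizer (g := fun y => (inner ℂ (Φ (fl f) (Q.U s M a v)) y : ℂ))
    (h := fun y => inner ℂ (∑ k, c k • Q.U s M a (Ψ k (fl (simS s hs hM a f)) v)) y)
    (by fun_prop) (by fun_prop) (funext fun w => key v w)
  exact ext_inner_right ℂ fun y => congrFun h2 y

lemma cov_vac {Φ : GF.Fld D} {Ψ : Ix → GF.Fld D} (hΦ : Q.bose Φ) (hΨ : ∀ k, Q.bose (Ψ k))
    (c : Ix → ℂ) (h : ∀ f : 𝓢(Mink, ℂ),
      Φ (fl f) Q.vac = ∑ k, c k • Q.U s M a (Ψ k (fl (simS s hs hM a f)) Q.vac))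
    (f : 𝓢(Mink, ℂ)) (v : D) :
    Φ (fl f) (Q.U s M a v) = ∑ k, c k • Q.U s M a (Ψ k (fl (simS s hs hM a f)) v) := by
  obtain ⟨g, hg, hlim⟩ := exists_compact_seq f
  have h1 := ((fld_cont (Q.bose_fld _ hΦ) (Q.U s M a v)).tendsto f).comp hlim
  have hc2 : Continuous fun f : 𝓢(Mink, ℂ) => ∑ k, c k •
      Q.U s M a (Ψ k (fl (simS s hs hM a f)) v) := continuous_finset_sum _ fun k _ =>
    ((contU hs hM).comp ((fld_cont (Q.bose_fld _ (hΨ k)) v).comp
      (continuous_simS s hs hM a))).const_smul (c k)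
  refine tendsto_nhds_unique h1 (((hc2.tendsto f).comp hlim).congr fun n => ?_)
  exact (cov_cpt hs hM hC hΦ hΨ c ⟨hg n, Set.subset_univ _⟩ (h _) v).symm

end

lemma herm_vac {A B : GF.Fld D} (hA : Q.bose A) (h : IsAdj A B)
    (hv : ∀ f, GF.IsTest f → A f Q.vac = B f Q.vac) : IsAdj A A := by
  have hf := Q.bose_fld _ hA
  have hadj2 : ∀ (f : 𝓢(Mink, ℂ)) v w, inner ℂ (B (fl f) v) w =
      inner ℂ v (A (fl (conjS f)) w) := fun f v w => by
    rw [H246.adj_symm h _ _ _ (isTest_fl f), bar_fl]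
  obtain ⟨L', hL', hadj⟩ := Q.adj A hf
  have e : ∀ (f : 𝓢(Mink, ℂ)) v, L' (fl f) v = B (fl f) v := fun f v =>
    ext_inner_right ℂ fun w => by
      rw [H246.adj_symm hadj _ _ _ (isTest_fl f), H246.adj_symm h _ _ _ (isTest_fl f)]
  have hadj1 : ∀ (f : 𝓢(Mink, ℂ)) v w, inner ℂ (A (fl f) v) w =
      inner ℂ v (B (fl (conjS f)) w) := fun f v w => by
    rw [h _ _ _ (isTest_fl f), bar_fl]
  have hcm : ∀ f a X X', IsTest (MW (Wed (Rt 0 0) a 1)) f → Al Q (Wed (Rt 0 0) a (-1)) X X' →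
      ∀ v, A (fl f) (X v) = X (A (fl f) v) := fun f a X X' hf hX =>
    bose_comm hA (fun G hG => wed_sep (isLor_Rt 0 0) a hf hG) hX
  have hcm' : ∀ f a X X', IsTest (MW (Wed (Rt 0 0) a 1)) f → Al Q (Wed (Rt 0 0) a (-1)) X X' →
      ∀ v, B (fl f) (X v) = X (B (fl f) v) := by
    intro f a X X' hf hX v
    refine ext_inner_right ℂ fun w => ?_
    rw [hadj2, hX.adj, hX.adj, hadj2, hcm _ a _ _ (isTest_conj hf) hX.star]
  have hz : ∀ (f : 𝓢(Mink, ℂ)) (v : D), B (fl f) v - A (fl f) v = 0 := by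
    intro f v
    refine van (Q := Q) (B := fun f v => B (fl f) v - A (fl f) v)
      (B' := fun f v => A (fl f) v - B (fl f) v) ?_ ?_ ?_ ?_ f v
    · intro f v w
      rw [inner_sub_left, inner_sub_right, hadj1, hadj2]
    · intro f a X X' hf hX
      rw [hcm f a X X' hf hX, hcm' f a X X' hf hX]
      have := (hX.map_add (A (fl f) Q.vac) ((-1 : ℂ) • B (fl f) Q.vac))
      rw [hX.map_smul, neg_one_smul, neg_one_smul, ← sub_eq_add_neg, ← sub_eq_add_neg] at this
      exact this.symm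
    · intro f _
      rw [hv _ (isTest_fl f), sub_self]
    · intro v
      simp only [← e]
      exact (fld_cont hL' v).sub (fld_cont hf v)
  intro f v w hf'
  obtain ⟨F, rfl⟩ := exists_fl hf'
  rw [bar_fl, hadj1, sub_eq_zero.1 (hz (conjS F) w)]

lemma div_vac {T : Ix → Ix → GF.Fld D} (hT : Q.IsStress T) {J : Ix → GF.Fld D}
    (hb : ∀ m, Q.bose (J m)) (hh : ∀ m, IsAdj (J m) (J m))
    (hv : ∀ f : 𝓢(Mink, ℂ), GF.tr T (fl f) Q.vac + ∑ m, J m (fl (∂_{eb m} f)) Q.vac = 0)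
    (f : 𝓢(Mink, ℂ)) (v : D) : GF.tr T (fl f) v + ∑ m, J m (fl (∂_{eb m} f)) v = 0 := by
  have hA := PField.tr hT
  refine van (Q := Q) (B := fun f v => GF.tr T (fl f) v + ∑ m, J m (fl (∂_{eb m} f)) v)
    (B' := fun f v => GF.tr T (fl f) v + ∑ m, J m (fl (∂_{eb m} f)) v) ?_ ?_ ?_ ?_ f v
  · intro f v w
    rw [inner_add_left, inner_add_right, hA.herm, sum_inner, inner_sum]
    congr 1
    exact Finset.sum_congr rfl fun m _ => by
      rw [hh m _ _ _ (isTest_fl _), bar_fl, conjS_lineDeriv]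
  · intro f a X X' hf hX
    have h1 : ∀ m, J m (fl (∂_{eb m} f)) (X Q.vac) = X (J m (fl (∂_{eb m} f)) Q.vac) := fun m =>
      bose_comm (hb m) (fun G hG => wed_sep (isLor_Rt 0 0) a (isTest_lineDeriv hf _) hG) hX _
    have h2 := al_sum hX Finset.univ (fun _ => 1) fun m => J m (fl (∂_{eb m} f)) Q.vac
    simp only [one_smul] at h2
    rw [hX.comm hA (fun G hG => wed_sep (isLor_Rt 0 0) a hf hG), hX.map_add, h2]
    simp only [h1]
  · exact fun f _ => hv f
  · intro v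
    exact (hA.cont v).add (continuous_finset_sum _ fun m _ => (fld_cont (Q.bose_fld _ (hb m)) v).comp
      (LineDeriv.lineDerivOpCLM ℂ 𝓢(Mink, ℂ) (eb m)).continuous)

theorem fe {Q' : GF.Theory D'} {i : D →ₗᵢ[ℂ] D'} (h : Sect Q Q' i) {T : Ix → Ix → GF.Fld D}
    {T' : Ix → Ix → GF.Fld D'} (hT : Q'.IsStress T') (hx : ∀ m n, Xt i (T m n) (T' m n))
    {J : Ix → GF.Fld D} (hJ : IsVirial Q T J) (hc : Curl J Q.vac) :
    ∃ J', (∀ m, Xt i (J m) (J' m)) ∧ IsVirial Q' T' J' ∧ IsImpr Q' T' (improveJ T' J') ∧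
      ConfAct Q' (improveJ T' J') := by
  choose J' B hb ha h1 h2 using fun m => h.bose (J m) (J m) (hJ.bose m) (hJ.herm m)
  have e : ∀ m (f : 𝓢(Mink, ℂ)), J' m (fl f) Q'.vac = i (J m (fl f) Q.vac) := fun m f => by
    rw [h1 m _ _ (isTest_fl f), h.vac]
  have hh : ∀ m, IsAdj (J' m) (J' m) := fun m => herm_vac (hb m) (ha m) fun f hf => by
    rw [← h.vac, ← h1 m f _ hf, ← h2 m f _ hf]
  have hV : IsVirial Q' T' J' := by
    refine ⟨hb, hh, fun m s L a f v hs hL hf => ?_, fun f v hf => ?_⟩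
    · obtain ⟨F, rfl⟩ := exists_fl hf
      rw [fl_sim s hs hL a]
      refine cov_vac hs hL (h.cov s L a hs hL) (hb m) hb _ (fun g => ?_) F v
      have := hJ.cov m s L a (fl g) Q.vac hs hL (isTest_fl g)
      rw [Q.U_vac _ _ _ hs hL, fl_sim s hs hL a] at this
      simp only [e, this, map_sum, map_smul, h.U _ _ _ _ hs hL]
    · obtain ⟨F, rfl⟩ := exists_fl hf
      simp only [pd_fl]
      refine eq_neg_of_add_eq_zero_left (div_vac hT hb hh (fun g => ?_) F v)
      have e2 : GF.tr T' (fl g) Q'.vac = i (GF.tr T (fl g) Q.vac) := by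
        simp only [GF.tr, map_sum, map_smul, hx _ _ _ _ (isTest_fl g), h.vac]
      rw [e2, hJ.div' g]
      simp only [e, map_neg, map_sum, neg_add_cancel]
  have hc' : Curl J' Q'.vac := fun m n f => by
    rw [e, e, ← map_smul, ← map_smul, hc m n f]
  have h3 := H246D.impr_of_curl hT hV hc'
  exact ⟨J', h1, hV, h3, conf_act (isT_of_impr h3 hT)⟩

end Vale.Agent.P352X.FE

end
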